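import Vale.Agent.P267.H75.Cls
import Vale.Agent.P267.H205.Fact

/-!
# P267 (helper75): `HeadsIn`
-/

open scoped Manifold ContDiff ComplexConjugate Matrix Topology
open Set Filter
open Vale.Agent.P267.FL Vale.Agent.P267.LineX

noncomputable section

namespace Vale.Agent.P267.H75

variable {X : Type} [TopologicalSpace X] [T2Space X] [CompactSpace X] [ConnectedSpace X]
  [ChartedSpace C2 X] [IsManifold 𝓘(ℂ, C2) ω X] {n : ℕ}

/-- **The factorisation of the divisors `D_i`.** -/
theorem headsIn (O : BlockOut X n) : H205.HeadsIn O := by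
  intro i
  obtain ⟨φ, Nc, I, h1, h2, h3, ⟨K, hK, h4⟩, h5, h6⟩ := heads O i
  exact ⟨φ, Nc, I, h1, h2, h3, ⟨K, hK, h4⟩, h5, h6⟩

end Vale.Agent.P267.H75
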