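import Vale.Agent.P267.H283.Out
import Vale.Agent.P267.H824.Leaf

/-!
# P267, G-ID (helper75): numbers of general line bundles on the infinite cyclic cover

For line bundles `L`, `M` on `Cov h` which are trivial at both ends: the intersection numbers of the
periodic extensions to `X_m` are those on `Cov h`, for `m` large; `isec K L` does not depend on the
canonical bundle `K`; `isec L L - isec K L = -2 r` with `r : ℕ`, and then `H1Leaf L i₀ R r`.
-/

set_option linter.unusedVariables false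
set_option linter.unusedSectionVars false

open scoped Manifold ContDiff ComplexConjugate
open Set Filter
open Vale.Agent.P267.FL Vale.Agent.P267.H158 Vale.Agent.P267.RR Vale.Agent.P267.BlockC
open Vale.Agent.P267.XT

noncomputable section

namespace Vale.Agent.P267.H75

variable {X : Type} [TopologicalSpace X] [ChartedSpace C2 X] {h : C(X, UnitAddCircle)}

/-- the number `isec K L` does not depend on `K` -/
theorem isec_canon_eq (H : CovFacts h) {L : ALB (Cov h)} {i₀ : L.ι} {R : ℝ}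
    (hL : EndTriv h L i₀ R) {K K' : ALB (Cov h)} (hK : IsCanon K.L) (hK' : IsCanon K'.L) :
    isec K.L L.L = isec K'.L L.L := by
  obtain ⟨A, hA, hAd⟩ := H.canon K K' hK hK'
  have h1 : K.L.curv = K'.L.curv + A.d := by rw [hAd]; abel
  rw [BlockC.isec_comm K.L, BlockC.isec_comm K'.L, isec_eq, isec_eq, h1,
    H.pair_add' _ _ _ (H.curv_smooth L) (H.curv_smooth K') (H.smooth_d A hA)
      (H.curv_CS L i₀ R hL),
    H.pair_d A _ hA (H.curv_smooth L) (H.curv_closed L) (H.curv_CS L i₀ R hL), add_zero]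

/-- intersection numbers of periodic extensions -/
theorem exists_per (H : CovFacts h) (hF : ∀ (m : ℕ) [NeZero m], FormFacts (CovM h m))
    {L M : ALB (Cov h)} {i₀ : L.ι} {j₀ : M.ι} {R R' : ℝ} (hL : EndTriv h L i₀ R)
    (hM : EndTriv h M j₀ R') : ∃ m₁ : ℕ, ∀ (m : ℕ) [NeZero m], m₁ ≤ m →
      ∃ (L' : LB (CovM h m) L.ι) (M' : LB (CovM h m) M.ι), IsPer h m L.L L' ∧ IsPer h m M.L M' ∧
        isec L' M' = isec L.L M.L ∧
        (∀ G : TwoF (CovM h m), G.Smooth → BlockC.pair L'.curv G = BlockC.pair L.L.curv (pullM m G)) ∧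
        (∀ G : TwoF (CovM h m), G.Smooth →
          BlockC.pair M'.curv G = BlockC.pair M.L.curv (pullM m G)) := by
  have hev := H379.eventually_wrapForm H.local_Q (H.cl L i₀ R hL) (H.cl M j₀ R' hM)
  obtain ⟨m0, hm0⟩ := Filter.eventually_atTop.1 hev
  obtain ⟨m1, hm1⟩ := exists_nat_ge (2 * R)
  obtain ⟨m2, hm2⟩ := exists_nat_ge (2 * R')
  refine ⟨m0 + m1 + m2, fun m _ hm => ?_⟩
  have hmR : ((m0 + m1 + m2 : ℕ) : ℝ) ≤ m := by exact_mod_cast hm
  push_cast at hmR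
  have hnn0 : (0 : ℝ) ≤ m0 := Nat.cast_nonneg _
  have hnn1 : (0 : ℝ) ≤ m1 := Nat.cast_nonneg _
  have hnn2 : (0 : ℝ) ≤ m2 := Nat.cast_nonneg _
  obtain ⟨L', hL1, hL2, hL3⟩ := H.per m L i₀ R hL (by linarith)
  obtain ⟨M', hM1, hM2, hM3⟩ := H.per m M j₀ R' hM (by linarith)
  refine ⟨L', M', hL1, hM1, ?_, hL2, hM2⟩
  rw [H.isec_per (hF m) hL hM hL2 hM3, H.isec_eq_Q L M i₀ j₀ R R' hL hM, hm0 m (by omega)]

/-- the same with the canonical bundle -/
theorem isec_canon_per (H : CovFacts h) (hF : ∀ (m : ℕ) [NeZero m], FormFacts (CovM h m))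
    {L : ALB (Cov h)} {m : ℕ} [NeZero m] {L' : LB (CovM h m) L.ι}
    (hL : ∀ G : TwoF (CovM h m), G.Smooth →
      BlockC.pair L'.curv G = BlockC.pair L.L.curv (pullM m G))
    {K : ALB (CovM h m)} (hK : IsCanon K.L) :
    ∃ K' : ALB (Cov h), IsCanon K'.L ∧ isec K.L L' = isec K'.L L.L := by
  obtain ⟨K', hK', hKc⟩ := H.canon_pull m K hK
  refine ⟨K', hK', ?_⟩
  rw [isec_eq, BlockC.pair_comm, hL _ ((hF m).curv_smooth K), ← hKc, BlockC.pair_comm]
  rfl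

/-- `χ(L)` is an integer `≤ 0` -/
theorem exists_chi (H : CovFacts h) (hF : ∀ (m : ℕ) [NeZero m], FormFacts (CovM h m)) {n : ℕ}
    (hS : ∀ (m : ℕ) [NeZero m], SurfIn (CovM h m) (m * n)) {L : ALB (Cov h)} {i₀ : L.ι} {R : ℝ}
    (hL : EndTriv h L i₀ R) : ∃ r : ℕ, ∀ K : ALB (Cov h), IsCanon K.L →
      isec L.L L.L - isec K.L L.L = -(2 * (r : ℂ)) := by
  obtain ⟨m₁, hm₁⟩ := exists_per H hF hL hL
  have hne : NeZero (m₁ + 1) := ⟨by omega⟩
  obtain ⟨L', M', h1, h2, h3, h4, h5⟩ := hm₁ (m₁ + 1) (by omega)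
  have hLM : L' = M' ∨ True := Or.inr trivial
  obtain ⟨K, hK⟩ := (hF (m₁ + 1)).exists_canon
  obtain ⟨K', hK', hKK⟩ := isec_canon_per H hF h4 hK
  obtain ⟨k, hk⟩ := (hS (m₁ + 1)).rr ⟨L.ι, L'⟩ K hK
  have h6 : isec L' L' = isec L.L L.L := by
    rw [← h3]
    have e1 : isec L' L' = -(1 / (4 * (Real.pi : ℂ) ^ 2)) * BlockC.pair L'.curv L'.curv := rfl
    have e2 : isec L' M' = -(1 / (4 * (Real.pi : ℂ) ^ 2)) * BlockC.pair L'.curv M'.curv := rfl
    rw [e1, e2]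
    congr 1
    rw [h4 _ ((hF (m₁ + 1)).curv_smooth ⟨L.ι, L'⟩),
      BlockC.pair_comm L'.curv, h5 _ ((hF (m₁ + 1)).curv_smooth ⟨L.ι, L'⟩)]
  refine ⟨k, fun K'' hK'' => ?_⟩
  change isec L' L' - isec K.L L' = -2 * k at hk
  rw [isec_canon_eq H hL hK'' hK', ← hKK, ← h6, hk]
  ring

/-- Riemann-Roch on `X_m` -/
theorem h1Leaf (H : CovFacts h) (hF : ∀ (m : ℕ) [NeZero m], FormFacts (CovM h m))
    [IsManifold 𝓘(ℂ, C2) ω X]
    (D : XTData (Cov h)) (hγ : ∀ x, D.γ x = Cov.γ x) (hf : ∀ x, D.f x = Cov.f x)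
    (hY : ∀ (m : ℕ) [NeZero m], H824.RRIn (CovM h m)) {L : ALB (Cov h)} {i₀ : L.ι} {R : ℝ}
    (hL : EndTriv h L i₀ R) {r : ℕ} (hr : ∀ K : ALB (Cov h), IsCanon K.L →
      isec L.L L.L - isec K.L L.L = -(2 * (r : ℂ))) : D.H1Leaf L.L i₀ R r := by
  obtain ⟨m₁, hm₁⟩ := exists_per H hF hL hL
  set R' : ℝ := max R (m₁ : ℝ) with hR'
  have h1 : D.H1Leaf L.L i₀ R' r := by
    refine H824.h1Leaf_gen D hγ hf hY L.L i₀ R' r fun m _ hm => ?_
    have hm' : m₁ ≤ m := by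
      have h0 : (0 : ℝ) ≤ m₁ := Nat.cast_nonneg _
      have : (m₁ : ℝ) ≤ m := by
        have h2 : (m₁ : ℝ) ≤ R' := le_max_right _ _
        linarith
      exact_mod_cast this
    obtain ⟨L', M', h1, h2, h3, h4, h5⟩ := hm₁ m hm'
    have h6 : isec L' L' = isec L.L L.L := by
      rw [← h3]
      have e1 : isec L' L' = -(1 / (4 * (Real.pi : ℂ) ^ 2)) * BlockC.pair L'.curv L'.curv := rfl
      have e2 : isec L' M' = -(1 / (4 * (Real.pi : ℂ) ^ 2)) * BlockC.pair L'.curv M'.curv := rfl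
      rw [e1, e2]
      congr 1
      rw [h4 _ ((hF m).curv_smooth ⟨L.ι, L'⟩),
        BlockC.pair_comm L'.curv, h5 _ ((hF m).curv_smooth ⟨L.ι, L'⟩)]
    refine ⟨L', h1, fun K hK => ?_⟩
    obtain ⟨K', hK', hKK⟩ := isec_canon_per H hF h4 hK
    rw [h6, hKK]
    exact hr K' hK'
  intro a N m₀ Lm am hN hE hS
  refine h1 a N m₀ Lm am hN ?_ hS
  exact ⟨hE.hol, fun x hx => hE.ends x ((le_max_left _ _).trans hx), hE.decay, hE.decay'⟩

end Vale.Agent.P267.H75
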