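import Vale.Agent.P267.H994.Exist
import Vale.Agent.P267.H283.Final
import Vale.Agent.P267.H206.Fa5

/-!
# P267 (helper75): the basis of block C over `BlockOut`
-/

open scoped Manifold ContDiff ComplexConjugate Matrix Topology
open Set Filter
open Vale.Agent.P272.K (Cm)
open Vale.Agent.P267.FL Vale.Agent.P267.H158 Vale.Agent.P267.XT Vale.Agent.P267.H206
  Vale.Agent.P267.BlockC Vale.Agent.P267.LineX

noncomputable section

namespace Vale.Agent.P267.H75

variable {X : Type} [TopologicalSpace X] [T2Space X] [CompactSpace X]
  [ChartedSpace C2 X] [IsManifold 𝓘(ℂ, C2) ω X] {n : ℕ}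

/-- the facts on forms on the infinite cyclic cover -/
theorem covFacts_of (O : BlockOut X n) : CovFacts O.B.hh :=
  covFacts (curvThm (Cov O.B.hh)) (XT.covMapThm X O.B.hh)

/-- the bundles of `BlockOut` as a `Basis` -/
theorem basis_of [ConnectedSpace X] (O : BlockOut X n) :
    Basis (covFacts_of O) O.E O.i₀ O.R where
  form m _ := formFacts (curvThm (CovM O.B.hh m))
  unimod m _ := by
    have : LocallyConnectedSpace X := ChartedSpace.locallyConnectedSpace (Cm 2) X
    have : ConnectedSpace (CovM O.B.hh m) := CovM.connectedSpace O.B.prim m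
    exact H994.unimod (CovM O.B.hh m) (m * n) (O.surf m)
  triv i := O.triv i
  dot := O.dot
  can i K h := O.can i K h

end Vale.Agent.P267.H75
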