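import Vale.Agent.P267.H75.Head
import Vale.Agent.P267.H75.Bas
import Vale.Agent.P267.H283.Pars
import Vale.Agent.P267.H283.Head
import Vale.Agent.P267.H823.PL10

/-!
# P267 (helper75): the class of a compact curve

`adj`: `K.C + C.C = -2` for the bundle of a curve. `cls`: the class of every compact curve is
`e_h - ∑_{j ∈ I} e_j`. `heads`: the factorisation `N_i = Nc * ∏_{j ∈ I} N_j`.
-/

set_option linter.unusedVariables false
set_option linter.unusedSectionVars false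

open scoped Manifold ContDiff ComplexConjugate Matrix Topology
open Set Filter
open Vale.Agent.P272.K (Cm)
open Vale.Agent.P267.FL Vale.Agent.P267.H158 Vale.Agent.P267.XT Vale.Agent.P267.H338
  Vale.Agent.P267.H757 Vale.Agent.P267.H332 Vale.Agent.P267.H206 Vale.Agent.P267.BlockC
  Vale.Agent.P267.LineX

noncomputable section

namespace Vale.Agent.P267.H75

variable {X : Type} [TopologicalSpace X] [T2Space X] [CompactSpace X] [ConnectedSpace X]
  [ChartedSpace C2 X] [IsManifold 𝓘(ℂ, C2) ω X] {n : ℕ} {O : BlockOut X n}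

theorem curve_red {φ : EmbP1 (Cov O.B.hh)} (c : CurveLB O.B.D φ) (p : Cov O.B.hh)
    (hp : ‖c.s p‖ ^ 2 = 0) : ∃ U g ψ, p ∈ U ∧ LocRep C2 (fun x => ‖c.s x‖ ^ 2) U g ψ ∧
      mfderiv 𝓘(ℂ, C2) 𝓘(ℂ) g p ≠ 0 := by
  have hpC : p ∈ φ.image := (c.zero p).1 (by simpa using hp)
  obtain ⟨U, l, hxU, hd⟩ := φ.isCurve.exists_def p hpC
  obtain ⟨ψ, hψ⟩ := c.norm U l hd
  exact ⟨U, l, ψ, hxU, hψ, hd.reg p hxU hpC⟩

/-- the curvature of the norm of the canonical section has compact support -/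
theorem cs_cF {φ : EmbP1 (Cov O.B.hh)} (c : CurveLB O.B.D φ) :
    CS (cF fun x => ‖c.s x‖ ^ 2) := by
  have hN : IsNormFn C2 (fun x => ‖c.s x‖ ^ 2) := (nf_of_dense (dense_of_curve c)).1
  refine ⟨c.R + 1, fun x hx => ⟨rfl, ?_, rfl⟩⟩
  refine H823.PL.curvN_const (c := 1) one_pos hN ?_
  have h1 : c.R < |O.B.D.f x| := by
    rw [O.B.f_eq]; linarith
  filter_upwards [(H399.continuous_f O.B.D).abs.continuousAt.eventually (lt_mem_nhds h1)] with y hy
  rw [c.s_end y hy.le, H706.norm_eb, one_pow]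

/-- **Adjunction** for the bundle of a curve: `K.C + C.C = -2`. -/
theorem adj {φ : EmbP1 (Cov O.B.hh)} (c : CurveLB O.B.D φ) {K : ALB (Cov O.B.hh)}
    (hK : RR.IsCanon K.L) :
    RR.isec K.L (mbc c).L.L + RR.isec (mbc c).L.L (mbc c).L.L = -2 := by
  have : SigmaCompactSpace (Cov O.B.hh) := H338.sigmaCompact_cov
  have H : CovFacts O.B.hh := covFacts_of O
  set N : Cov O.B.hh → ℝ := fun x => ‖c.s x‖ ^ 2 with hNdef
  obtain ⟨hN, hcF⟩ := nf_of_dense (dense_of_curve c)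
  have hcF' : cF N = (mbc c).L.L.chern (mbc c).a := hcF
  have hz : ∀ x, N x = 0 ↔ x ∈ φ.image := by
    intro x
    rw [← c.zero x]
    simp [hNdef]
  have hKc : IsCompact {z : Cov O.B.hh | -c.R ≤ Cov.f z ∧ Cov.f z ≤ c.R} := Cov.isCompact_slab _ _
  have h1 := H823.PL.adjunction_int φ hN hz (fun p hp => curve_red c p hp) hKc (fun x hx => by
    have h2 : c.R ≤ |O.B.D.f x| := by
      rw [O.B.f_eq]
      by_contra h3
      exact hx (abs_le.1 (not_le.1 h3).le)
    change ‖c.s x‖ ^ 2 = 1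
    rw [c.s_end x h2, H706.norm_eb, one_pow]) hK
  -- the Chern form
  have hS : (cF N).Smooth := cF_smooth hN
  have hcl : (cF N).Closed := cF_closed hN
  have hcs : CS (cF N) := cs_cF c
  have hHC : cF N ∈ HC (Cov O.B.hh) := ⟨hS, hcl, isCompact_supp2 hcs⟩
  set L := (mbc c).L.L with hL
  set dA := (connF (mbc c).a).d with hdA
  have hdec : cF N = L.curv + dA := by rw [hcF', chern_eq_add]
  have hLc : CS L.curv := H.curv_CS (mbc c).L (mbc c).j (mbc c).R (mbc c).endB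
  have hdcs : CS dA := by
    obtain ⟨R₁, hR₁⟩ := hcs
    obtain ⟨R₂, hR₂⟩ := hLc
    refine ⟨max R₁ R₂, fun x hx => ?_⟩
    obtain ⟨k1, k2, k3⟩ := hR₁ x ((le_max_left _ _).trans hx)
    obtain ⟨l1, l2, l3⟩ := hR₂ x ((le_max_right _ _).trans hx)
    rw [hdec] at k1 k2 k3
    simp only [TwoF.f20_add, TwoF.f11_add, TwoF.f02_add, Pi.add_apply] at k1 k2 k3
    rw [l1, zero_add] at k1
    rw [l2, zero_add] at k2
    rw [l3, zero_add] at k3
    exact ⟨k1, k2, k3⟩
  have hAs := connF_smooth (mbc c).ends.hol.smooth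
  have hds : dA.Smooth := H857.smooth_d hAs
  have hKs : K.L.curv.Smooth := K.L.curv_smooth
  have h2 : intX ((cF N).wedge K.L.curv) = intX (L.curv.wedge K.L.curv) := by
    have h3 : pair (L.curv + dA) K.L.curv = pair L.curv K.L.curv + pair dA K.L.curv :=
      H.pair_add _ _ _ L.curv_smooth hds hKs hLc hdcs
    have h4 : pair dA K.L.curv = 0 := by
      refine intX_dA_wedge hAs.c1 (TwoF.Smooth.c1 hKs) K.L.curv_closed hKc fun x hx => Or.inl ?_
      have h5 : c.R ≤ |O.B.D.f x| := by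
        rw [O.B.f_eq]
        by_contra h3
        exact hx (abs_le.1 (not_le.1 h3).le)
      have h6 : (mbc c).a x = 0 := c.a_end x h5
      refine ⟨?_, h6⟩
      funext i
      change -conj ((mbc c).a x i) = 0
      rw [h6]
      simp
    rw [hdec]
    change pair (L.curv + dA) K.L.curv = pair L.curv K.L.curv
    rw [h3, h4, add_zero]
  have h3 : intX ((cF N).wedge (cF N)) = intX (L.curv.wedge L.curv) := by
    conv_lhs => rw [hcF']
    rw [intX_chern_wedge (mbc c).ends.hol (by rw [← hcF']; exact hHC), ← hcF', BlockC.wedge_comm,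
      hcF', intX_chern_wedge (mbc c).ends.hol (curv_mem_HC H (mbc c))]
  have h1' : intX ((cF N).wedge K.L.curv) + intX ((cF N).wedge (cF N)) =
      8 * (Real.pi : ℂ) ^ 2 := h1
  rw [h2, h3] at h1'
  have hpi : (Real.pi : ℂ) ≠ 0 := by exact_mod_cast Real.pi_ne_zero
  rw [BlockC.isec_comm]
  change -(1 / (4 * (Real.pi : ℂ) ^ 2)) * intX (L.curv.wedge K.L.curv) +
    -(1 / (4 * (Real.pi : ℂ) ^ 2)) * intX (L.curv.wedge L.curv) = -2
  rw [← mul_add, h1']
  field_simp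
  ring

theorem outData (O : BlockOut X n) : H928.K1.OutData O.B.hh O.E O.i₀ O.R :=
  ⟨O.triv, O.dot, O.can⟩

/-- **The class of a compact curve.** -/
theorem cls (φ : EmbP1 (Cov O.B.hh)) (c : CurveLB O.B.D φ) :
    ∃ (h : Fin n × ℤ) (I : Finset (Fin n × ℤ)), h ∉ I ∧
      ∀ b, (mbc c).x (basis_of O) b = (if b = h then 1 else 0) - (if b ∈ I then 1 else 0) := by
  classical
  have H : CovFacts O.B.hh := covFacts_of O
  have hS := basis_of O
  have : Nonempty (Cov O.B.hh) := ⟨φ.f₀ 0⟩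
  -- integrality
  obtain ⟨x, hxf, hx⟩ := H283.exists_coef H (fun m _ => hS.form m) (fun m _ => O.surf m)
    (outData O) (Eb := fun b => O.bL b) (fun b => MB.isShift_bL b) (mbc c).endB
  have hx' : ∀ b, (mbc c).x hS b = x b := by
    intro b
    have h1 := isec_base hS (mbc c) b
    have h2 : RR.isec (mbc c).L.L (O.bL b) = -(x b : ℂ) := hx b
    have h3 : ((-(mbc c).x hS b : ℝ) : ℂ) = -(x b : ℂ) := h1.symm.trans h2
    have h4 : ((mbc c).x hS b : ℂ) = ((x b : ℝ) : ℂ) := by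
      push_cast at h3 ⊢
      exact neg_injective h3
    exact_mod_cast h4
  -- adjunction
  have hsum : ∑ᶠ b, x b ^ 2 + ∑ᶠ b, x b = 2 := by
    obtain ⟨K1, hK1⟩ := (hS.form 1).exists_canon
    obtain ⟨K0, hK0, -⟩ := H.canon_pull 1 K1 hK1
    have h1 := adj c hK0
    rw [H283.isec_sq H (fun m _ => hS.form m) (fun m _ => O.surf m)
      (outData O) (Eb := fun b => O.bL b) (fun b => MB.isShift_bL b) (mbc c).endB hx,
      H283.isec_canon_parseval H (fun m _ => hS.form m) (fun m _ => O.surf m)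
      (outData O) (Eb := fun b => O.bL b) (fun b => MB.isShift_bL b) (mbc c).endB hx hK0] at h1
    have h2 : (((∑ᶠ b, x b ^ 2 + ∑ᶠ b, x b : ℤ)) : ℂ) = 2 := by
      push_cast at h1 ⊢
      linear_combination -h1
    exact_mod_cast h2
  rcases H283.head_cases hxf hsum with ⟨h, I, hhI, hc⟩ | ⟨h, I, hhI, hc⟩
  · refine ⟨h, I, hhI, fun b => ?_⟩
    rw [hx', hc]
    push_cast
    rfl
  · -- the product of `s_C`, `α_h²` and the `α_j` has a zero
    exfalso
    set A : MB O := ((mbc c).mul ((MB.base O h).mul (MB.base O h))).mul (MB.finprod O I) with hA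
    have h0 : ∀ b, A.x hS b = 0 := by
      intro b
      rw [hA, MB.x_mul, MB.x_mul, MB.x_mul, MB.x_base, MB.x_finprod, hx', hc]
      push_cast
      split_ifs <;> norm_num
    have h1 := MB.triv hS A h0 (φ.f₀ 0)
    apply h1
    rw [← norm_eq_zero, hA, MB.norm_mul, MB.norm_mul]
    have h2 : ‖(mbc c).α (φ.f₀ 0)‖ = 0 := by
      rw [norm_eq_zero]
      exact (c.zero _).2 (φ.mem_image_f₀ 0)
    rw [h2, zero_mul, zero_mul]

/-- **The factorisation of `N_i`.** -/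
theorem heads (O : BlockOut X n) (i : Fin n) :
    ∃ (φ : EmbP1 (Cov O.B.hh)) (Nc : Cov O.B.hh → ℝ) (I : Finset (Fin n × ℤ)),
      IsNormFn C2 Nc ∧ (∀ x, Nc x = 0 ↔ x ∈ φ.image) ∧
      (∀ x ∈ φ.image, ∃ U g ψ, x ∈ U ∧ LocRep C2 Nc U g ψ ∧ mfderiv 𝓘(ℂ, C2) 𝓘(ℂ) g x ≠ 0) ∧
      (∃ K > 0, ∀ x, O.B.D.f x ≤ -K → K⁻¹ ≤ Nc x ∧ Nc x ≤ K) ∧
      (∀ x, O.N (i, 0) x = Nc x * ∏ j ∈ I, O.N j x) ∧ ∃ A : MB O, ∀ x, Nc x = ‖A.α x‖ ^ 2 :=
  head_of_cls (basis_of O) cls i

end Vale.Agent.P267.H75
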