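import Vale.Agent.P267.H75.HeadEx

/-!
# P267 (helper75): the head curve and the factorisation of `N_i`

`head_of_cls`: if the class of every compact curve is `e_h - ∑_{j ∈ I} e_j`, then for every `i` there
are a compact curve `C`, a norm function `Nc` of `C` and a finite set `I` with
`N_i = Nc * ∏_{j ∈ I} N_j`.
-/

set_option linter.unusedVariables false
set_option linter.unusedSectionVars false

open scoped Manifold ContDiff ComplexConjugate Matrix Topology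
open Set Filter
open Vale.Agent.P272.K (Cm)
open Vale.Agent.P267.FL Vale.Agent.P267.H158 Vale.Agent.P267.XT Vale.Agent.P267.H338
  Vale.Agent.P267.H757 Vale.Agent.P267.H332 Vale.Agent.P267.H206 Vale.Agent.P267.BlockC
  Vale.Agent.P267.LineX

noncomputable section

namespace Vale.Agent.P267.H75

section

variable {M : Type} [TopologicalSpace M] [ChartedSpace C2 M] [IsManifold 𝓘(ℂ, C2) ω M]

/-- a norm function without zeros, with local equation `1` -/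
theorem locRep_pos {u : M → ℝ} (hu : IsNormFn C2 u) (h0 : ∀ x, u x ≠ 0) :
    LocRep C2 u univ (fun _ => 1) (fun x => -Real.log (u x)) := by
  have hpos : ∀ x, 0 < u x := fun x => lt_of_le_of_ne (hu.nonneg x) (Ne.symm (h0 x))
  refine ⟨isOpen_univ, mdifferentiableOn_const, fun V _ _ hne => ⟨hne.some, hne.some_mem,
    one_ne_zero⟩, ?_, fun x _ => ?_⟩
  · intro x _
    exact ((ContMDiffAt.comp (g := Real.log) x (Real.contDiffAt_log.2 (h0 x)).contMDiffAt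
      (hu.smooth x)).neg).contMDiffWithinAt
  · rw [norm_one, one_pow, one_mul, neg_neg, Real.exp_log (hpos x)]

/-- the product of a norm function of a curve with a norm function without zeros is reduced -/
theorem red_mul {C : Set M} {NC u : M → ℝ} (hC : IsCurve C2 C) (hNC : IsNormOf C2 C NC)
    (hu : IsNormFn C2 u) (h0 : ∀ x, u x ≠ 0) {x : M} (hx : x ∈ C) :
    ∃ U g ψ, x ∈ U ∧ LocRep C2 (fun x => NC x * u x) U g ψ ∧
      mfderiv 𝓘(ℂ, C2) 𝓘(ℂ) g x ≠ 0 := by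
  obtain ⟨U, l, hxU, hd⟩ := hC.exists_def x hx
  obtain ⟨φ, hφ⟩ := hNC U l hd
  have h1 := hφ.mul (locRep_pos hu h0)
  refine ⟨_, _, _, (⟨hxU, mem_univ x⟩ : x ∈ U ∩ univ), h1, ?_⟩
  have h2 : (fun x => l x * 1) = l := funext fun x => mul_one _
  rw [h2]
  exact hd.reg x hxU hx

end

variable {X : Type} [TopologicalSpace X] [T2Space X] [CompactSpace X] [ConnectedSpace X]
  [ChartedSpace C2 X] [IsManifold 𝓘(ℂ, C2) ω X] {n : ℕ} {O : BlockOut X n}

theorem head_of_cls {H : CovFacts O.B.hh} (S : Basis H O.E O.i₀ O.R)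
    (hcls : ∀ (φ : EmbP1 (Cov O.B.hh)) (c : CurveLB O.B.D φ),
      ∃ (h : Fin n × ℤ) (I : Finset (Fin n × ℤ)), h ∉ I ∧
        ∀ b, (mbc c).x S b = (if b = h then 1 else 0) - (if b ∈ I then 1 else 0)) (i : Fin n) :
    ∃ (φ : EmbP1 (Cov O.B.hh)) (Nc : Cov O.B.hh → ℝ) (I : Finset (Fin n × ℤ)),
      IsNormFn C2 Nc ∧ (∀ x, Nc x = 0 ↔ x ∈ φ.image) ∧
      (∀ x ∈ φ.image, ∃ U g ψ, x ∈ U ∧ LocRep C2 Nc U g ψ ∧ mfderiv 𝓘(ℂ, C2) 𝓘(ℂ) g x ≠ 0) ∧
      (∃ K > 0, ∀ x, O.B.D.f x ≤ -K → K⁻¹ ≤ Nc x ∧ Nc x ≤ K) ∧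
      (∀ x, O.N (i, 0) x = Nc x * ∏ j ∈ I, O.N j x) ∧ ∃ A : MB O, ∀ x, Nc x = ‖A.α x‖ ^ 2 := by
  have : SigmaCompactSpace (Cov O.B.hh) := sigmaCompact_cov
  obtain ⟨φ, hφ0, hφ⟩ := exists_pos_curve S i
  have : Nonempty (Cov O.B.hh) := ⟨φ.f₀ 0⟩
  obtain ⟨c⟩ := exists_curveLB O.B.D φ
  obtain ⟨h, I, hhI, hcl⟩ := hcls φ c
  -- the head is `(i, 0)`
  have hh : ((i, 0) : Fin n × ℤ) = h := by
    by_contra hne
    have h1 := hφ c
    rw [hcl, if_neg hne] at h1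
    split_ifs at h1 <;> norm_num at h1
  obtain ⟨ψ, hψ, hψ0, -, hnorm, κ, C, hκ, hbd⟩ := MB.fact S ((mbc c).mul (MB.finprod O I))
    (MB.base O (i, 0)) (fun b => by
      rw [MB.x_mul, hcl, MB.x_finprod, MB.x_base, hh]
      ring)
  -- `‖ψ‖²` is a norm function
  have hE : O.B.D.EndTriv (((mbc c).mul (MB.finprod O I)).L.L.dual.tensor
      (MB.base O (i, 0)).L.L) (((mbc c).mul (MB.finprod O I)).j, (MB.base O (i, 0)).j)
      (fun y j => -((mbc c).mul (MB.finprod O I)).a y j + (MB.base O (i, 0)).a y j)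
      (max ((mbc c).mul (MB.finprod O I)).R (MB.base O (i, 0)).R) O.d₀ :=
    endTriv_tensor (endTriv_mono ((mbc c).mul (MB.finprod O I)).ends (le_max_left _ _)).dual
      (endTriv_mono (MB.base O (i, 0)).ends (le_max_right _ _))
  have hψd : Dense {x | ψ x ≠ 0} := by
    have : {x | ψ x ≠ 0} = univ := eq_univ_of_forall hψ0
    rw [this]
    exact dense_univ
  have hu : IsNormFn C2 (fun x => ‖ψ x‖ ^ 2) := (H821.lbnf hE.hol hψ.reg hψ.sec hψ.hol hψd).1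
  have hu0 : ∀ x, ‖ψ x‖ ^ 2 ≠ 0 := fun x => pow_ne_zero 2 (norm_ne_zero_iff.2 (hψ0 x))
  have hNs : IsNormFn C2 (fun x => ‖c.s x‖ ^ 2) := (nf_of_dense (dense_of_curve c)).1
  refine ⟨φ, fun x => ‖c.s x‖ ^ 2 * ‖ψ x‖ ^ 2, I, hNs.mul hu, fun x => ?_, fun x hx =>
    red_mul φ.isCurve c.norm hu hu0 hx, ?_, fun x => ?_, ?_⟩
  · rw [mul_eq_zero, or_iff_left (hu0 x)]
    constructor
    · intro h1
      exact (c.zero x).1 (by simpa using h1)
    · intro h1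
      rw [(c.zero x).2 h1]; simp
  · have hC0 : 0 < C := lt_of_lt_of_le hκ ((hbd (φ.f₀ 0)).1.trans (hbd (φ.f₀ 0)).2)
    refine ⟨max c.R (max (C ^ 2) (κ ^ 2)⁻¹), lt_max_of_lt_right (lt_max_of_lt_left (by positivity)),
      fun x hx => ?_⟩
    have h1 : c.R ≤ |O.B.D.f x| := by
      have h2 : c.R ≤ -O.B.D.f x := by
        have := le_max_left c.R (max (C ^ 2) (κ ^ 2)⁻¹)
        linarith
      exact h2.trans (neg_le_abs _)
    beta_reduce
    rw [c.s_end x h1, H706.norm_eb, one_pow, one_mul]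
    have h3 := hbd x
    constructor
    · have h4 : (κ ^ 2)⁻¹ ≤ max c.R (max (C ^ 2) (κ ^ 2)⁻¹) :=
        (le_max_right _ _).trans (le_max_right _ _)
      have h5 : (max c.R (max (C ^ 2) (κ ^ 2)⁻¹))⁻¹ ≤ κ ^ 2 := by
        rw [inv_le_comm₀ (lt_of_lt_of_le (by positivity) h4) (by positivity)]
        exact h4
      exact h5.trans (pow_le_pow_left₀ hκ.le h3.1 2)
    · have h4 : C ^ 2 ≤ max c.R (max (C ^ 2) (κ ^ 2)⁻¹) :=
        (le_max_left _ _).trans (le_max_right _ _)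
      exact (pow_le_pow_left₀ (norm_nonneg _) h3.2 2).trans h4
  · have h1 := hnorm x
    rw [MB.norm_mul, MB.norm_finprod] at h1
    have h2 : O.N (i, 0) x = ‖(MB.base O (i, 0)).α x‖ ^ 2 := rfl
    have h3 : (∏ j ∈ I, O.N j x) = (∏ j ∈ I, ‖O.bα j x‖) ^ 2 := by
      rw [← Finset.prod_pow]
      rfl
    have h4 : ‖(mbc c).α x‖ = ‖c.s x‖ := rfl
    rw [h2, h1, h3, h4]
    ring
  · refine ⟨(mbc c).mul ⟨⟨_, ((mbc c).mul (MB.finprod O I)).L.L.dual.tensor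
      (MB.base O (i, 0)).L.L⟩, (((mbc c).mul (MB.finprod O I)).j, (MB.base O (i, 0)).j), _, _, ψ,
      hE, hψ⟩, fun x => ?_⟩
    have h4 : ‖(mbc c).α x‖ = ‖c.s x‖ := rfl
    rw [MB.norm_mul, h4, mul_pow]

end Vale.Agent.P267.H75
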