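import Vale.Agent.P267.H75.Sec
import Vale.Agent.P267.H206.Fa5
import Vale.Agent.P267.H338.Lines
import Vale.Agent.P267.H338.CountInst

/-!
# P267 (helper75): existence of the head curve

`mbc c`: the line bundle of a compact curve as an `MB`. `exists_pos_curve`: for every `i` there is a
compact curve `C` in the zero set of `α_i` with `E_i . C < 0`.
-/

set_option linter.unusedVariables false
set_option linter.unusedSectionVars false

open scoped Manifold ContDiff ComplexConjugate Matrix Topology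
open Set Filter
open Vale.Agent.P272.K (Cm)
open Vale.Agent.P267.FL Vale.Agent.P267.H158 Vale.Agent.P267.XT Vale.Agent.P267.H338
  Vale.Agent.P267.H757 Vale.Agent.P267.H332 Vale.Agent.P267.H206 Vale.Agent.P267.BlockC
  Vale.Agent.P267.LineX

noncomputable section

namespace Vale.Agent.P267.H75

/-! ### the abstract step -/

/-- Let `N` be a norm function whose zero set is a union of embedded lines, and `P` an additive
functional on norm functions which vanishes on those without zeros in the compact set `K`. If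
`P N < 0` then `P` is negative on one of the curves. -/
theorem exists_neg_line {M : Type*} [TopologicalSpace M] [ChartedSpace (Cm 2) M] [T2Space M]
    [IsManifold 𝓘(ℂ, Cm 2) ω M] {N : M → ℝ} (hN : IsNormFn (Cm 2) N)
    (hZ : ∀ x, N x = 0 → ∃ φ : EmbP1 M, x ∈ φ.image ∧ ∀ y ∈ φ.image, N y = 0)
    {K : Set M} (hK : IsCompact K) (NC : Lines M → M → ℝ)
    (hNC : ∀ C : Lines M, IsNormOf (Cm 2) C.1 (NC C)) (P : (M → ℝ) → ℝ)
    (hPmul : ∀ N N', IsNormFn (Cm 2) N → IsNormFn (Cm 2) N' →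
      P (fun x => N x * N' x) = P N + P N')
    (hPzero : ∀ N, IsNormFn (Cm 2) N → (∀ x ∈ K, N x ≠ 0) → P N = 0) (hPN : P N < 0) :
    ∃ C : Lines M, (∀ x ∈ C.1, N x = 0) ∧ P (NC C) < 0 := by
  classical
  have hcurve : ∀ C : Lines M, IsCurve (Cm 2) C.1 := by
    rintro ⟨_, φ, rfl⟩
    exact φ.isCurve
  have hprec : ∀ C : Lines M, IsPreconnected C.1 := by
    rintro ⟨_, φ, rfl⟩
    exact φ.isPreconnected_image
  have hnon : ∀ C : Lines M, C.1.Nonempty := by
    rintro ⟨_, φ, rfl⟩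
    exact ⟨_, φ.mem_image_f₀ 0⟩
  have hNCn : ∀ C, IsNormFn (Cm 2) (NC C) ∧ ∀ x, NC C x = 0 ↔ x ∈ C.1 := fun C =>
    isNormFn_of_curve (hcurve C) (hNC C)
  have hPone : P (fun _ => 1) = 0 := hPzero _ isNormFn_one (fun _ _ => one_ne_zero)
  have hPpow : ∀ N (m : ℕ), IsNormFn (Cm 2) N → P (fun x => N x ^ m) = m * P N := by
    intro N m hN
    induction m with
    | zero => simpa using hPone
    | succ m ih =>
      have h1 := hPmul _ _ (hN.pow m) hN
      have h2 : (fun x => N x ^ (m + 1)) = fun x => N x ^ m * N x := by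
        funext x; rw [pow_succ]
      rw [h2, h1, ih]; push_cast; ring
  have hPprod : ∀ (F : Finset (Lines M)) (m : Lines M → ℕ),
      P (fun x => ∏ C ∈ F, NC C x ^ m C) = ∑ C ∈ F, (m C : ℝ) * P (NC C) := by
    intro F m
    induction F using Finset.induction_on with
    | empty => simpa using hPone
    | insert C F hC ih =>
      have h1 := hPmul _ _ ((hNCn C).1.pow (m C))
        (isNormFn_prod F fun C' _ => (hNCn C').1.pow (m C'))
      rw [Finset.sum_insert hC, ← hPpow _ _ (hNCn C).1, ← ih, ← h1]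
      congr 1
      funext x
      rw [Finset.prod_insert hC]
  have hZ' : ∀ x, N x = 0 → ∃ C : Lines M, x ∈ C.1 ∧ ∀ z ∈ C.1, N z = 0 := by
    intro x hx
    obtain ⟨φ, hxφ, hφ⟩ := hZ x hx
    exact ⟨⟨φ.image, φ, rfl⟩, hxφ, hφ⟩
  -- local finiteness
  choose V hVo hpV hVfin using exists_nhds_finite finrank_Cm2 hN
  obtain ⟨t, ht⟩ := hK.elim_finite_subcover V hVo (fun x _ => mem_iUnion.2 ⟨x, hpV x⟩)
  set O : Set M := ⋃ p ∈ t, V p with hO
  have hOo : IsOpen O := isOpen_biUnion fun p _ => hVo p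
  have hfinF : {C : Lines M | (∀ x ∈ C.1, N x = 0) ∧ (C.1 ∩ O).Nonempty}.Finite := by
    have h1 : (⋃ p ∈ t, {C : Set M | IsCurve (Cm 2) C ∧ IsPreconnected C ∧
        (∀ x ∈ C, N x = 0) ∧ (C ∩ V p).Nonempty}).Finite :=
      t.finite_toSet.biUnion fun p _ => hVfin p
    refine Set.Finite.of_finite_image (f := Subtype.val) (h1.subset ?_)
      Subtype.val_injective.injOn
    rintro _ ⟨C, ⟨hC0, x, hxC, hxO⟩, rfl⟩
    obtain ⟨p, hp, hxp⟩ := mem_iUnion₂.1 hxO
    exact mem_iUnion₂.2 ⟨p, hp, hcurve C, hprec C, hC0, x, hxC, hxp⟩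
  set F : Finset (Lines M) := hfinF.toFinset with hF
  obtain ⟨m, N'', hN'', heq, hne⟩ := exists_factor_near finrank_Cm2 F
    (fun C : Lines M => C.1) (fun C _ => hcurve C) (fun C _ => hprec C) (fun C _ => hnon C)
    (NC := NC) (fun C _ => hNC C) hN hOo (by
      intro x hx h0
      obtain ⟨C, hxC, hC⟩ := hZ' x h0
      exact ⟨C, hfinF.mem_toFinset.2 ⟨hC, x, hxC, hx⟩, hxC⟩)
  have h1 := hPmul _ _ (isNormFn_prod F fun C _ => (hNCn C).1.pow (m C)) hN''
  have h2 : (fun x => (∏ C ∈ F, NC C x ^ m C) * N'' x) = N := funext fun x => (heq x).symm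
  rw [h2, hPzero N'' hN'' (fun x hx => hne x (ht hx)), add_zero, hPprod] at h1
  by_contra hcon
  push Not at hcon
  have h3 : 0 ≤ ∑ C ∈ F, (m C : ℝ) * P (NC C) := Finset.sum_nonneg fun C hC =>
    mul_nonneg (Nat.cast_nonneg _) (hcon C (hfinF.mem_toFinset.1 hC).1)
  rw [← h1] at h3
  exact absurd hPN (not_lt.2 h3)

/-! ### the bundle of a curve -/

section

variable {X : Type} [TopologicalSpace X] [ChartedSpace C2 X] [IsManifold 𝓘(ℂ, C2) ω X] {n : ℕ}
  {O : BlockOut X n}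

/-- the line bundle of a curve with its canonical section -/
def mbc {φ : EmbP1 (Cov O.B.hh)} (c : CurveLB O.B.D φ) : MB O where
  L := ⟨Fin (c.k + 1), c.L⟩
  j := (0 : Fin (c.k + 1))
  R := c.R
  a := c.a
  α := c.s
  ends := H399.endTriv_of_zero O.B.D c.hol c.P_end (R' := c.R) (fun x hx => c.a_end x hx.le) O.d₀
  mon := monic_of_exact (MB.d₀_pos O) c.reg c.sec c.shol c.s_end

theorem mbc_α {φ : EmbP1 (Cov O.B.hh)} (c : CurveLB O.B.D φ) (x : Cov O.B.hh) :
    (mbc c).α x = c.s x := rfl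

end

/-! ### intersection numbers -/

section

variable {X : Type} [TopologicalSpace X] [T2Space X] [CompactSpace X] [ChartedSpace C2 X]
  [IsManifold 𝓘(ℂ, C2) ω X] {n : ℕ} {O : BlockOut X n}

theorem isCompact_supp2 {hh : C(X, UnitAddCircle)} {F : TwoF (Cov hh)} (h : CS F) :
    IsCompact (supp2 F) := by
  obtain ⟨R, hR⟩ := h
  have hKc : IsCompact {z : Cov hh | -R ≤ Cov.f z ∧ Cov.f z ≤ R} := Cov.isCompact_slab _ _
  refine hKc.of_isClosed_subset isClosed_closure (closure_minimal ?_ hKc.isClosed)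
  intro x hx
  by_contra hxK
  have h1 : R ≤ |Cov.f x| := by
    by_contra h2
    exact hxK (abs_le.1 (not_le.1 h2).le)
  obtain ⟨h4, h5, h6⟩ := hR x h1
  rcases hx with h | h | h
  · exact h h4
  · exact h h5
  · exact h h6

variable {H : CovFacts O.B.hh} (S : Basis H O.E O.i₀ O.R)

theorem curv_mem_HC (H : CovFacts O.B.hh) (A : MB O) : A.L.L.curv ∈ HC (Cov O.B.hh) :=
  ⟨H.curv_smooth A.L, H.curv_closed A.L, isCompact_supp2 (H.curv_CS A.L A.j A.R A.endB)⟩

/-- pairing of a norm function with the class of the bundle `B` -/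
def pN (B : MB O) (N : Cov O.B.hh → ℝ) : ℂ :=
  -(1 / (4 * (Real.pi : ℂ) ^ 2)) * intX ((cF N).wedge B.L.L.curv)

include H in
theorem pN_mul (B : MB O) {N N' : Cov O.B.hh → ℝ} (h1 : IsNormFn C2 N) (h2 : IsNormFn C2 N') :
    pN B (fun x => N x * N' x) = pN B N + pN B N' := by
  have : SigmaCompactSpace (Cov O.B.hh) := sigmaCompact_cov
  have h3 := pairC_mul (intAx (X := Cov O.B.hh)) h1 h2 ⟨_, curv_mem_HC H B⟩
  simp only [pairC_apply] at h3
  rw [pN, h3, pN, pN]
  ring

include H in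
theorem pN_zero (B : MB O) {N : Cov O.B.hh → ℝ} (h1 : IsNormFn C2 N)
    (h2 : ∀ x ∈ supp2 B.L.L.curv, N x ≠ 0) : pN B N = 0 := by
  have : SigmaCompactSpace (Cov O.B.hh) := sigmaCompact_cov
  have h3 := pairC_eq_zero (intAx (X := Cov O.B.hh)) h1 ⟨_, curv_mem_HC H B⟩ (fun x hx =>
    lt_of_le_of_ne (h1.nonneg x) (Ne.symm (h2 x hx)))
  rw [pairC_apply] at h3
  rw [pN, h3, mul_zero]

theorem nf_of_dense {A : MB O} (hd : Dense {x | A.α x ≠ 0}) :
    IsNormFn C2 (fun x => ‖A.α x‖ ^ 2) ∧ cF (fun x => ‖A.α x‖ ^ 2) = A.L.L.chern A.a :=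
  H821.lbnf A.ends.hol A.mon.reg A.mon.sec A.mon.hol hd

include H in
/-- the pairing of the norm function of the section with the class of `B` is the intersection
number -/
theorem pN_norm {A : MB O} (hd : Dense {x | A.α x ≠ 0}) (B : MB O) :
    pN B (fun x => ‖A.α x‖ ^ 2) = RR.isec A.L.L B.L.L := by
  have : SigmaCompactSpace (Cov O.B.hh) := sigmaCompact_cov
  rw [pN, (nf_of_dense hd).2, intX_chern_wedge A.ends.hol (curv_mem_HC H B)]
  rfl

theorem isec_base (A : MB O) (b : Fin n × ℤ) :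
    RR.isec A.L.L (MB.base O b).L.L = ((-A.x S b : ℝ) : ℂ) :=
  S.isec_shift A.endB b.1 b.2 (MB.isShift_bL b)

theorem pN_base {A : MB O} (hd : Dense {x | A.α x ≠ 0}) (b : Fin n × ℤ) :
    pN (MB.base O b) (fun x => ‖A.α x‖ ^ 2) = ((-A.x S b : ℝ) : ℂ) := by
  rw [pN_norm (H := H) hd, isec_base S]

theorem dense_of_curve {φ : EmbP1 (Cov O.B.hh)} (c : CurveLB O.B.D φ) :
    Dense {x | (mbc c).α x ≠ 0} := by
  have h : Dense (φ.image)ᶜ := (φ.isCurve).dense_compl
  refine Dense.mono (fun x (hx : x ∉ φ.image) => ?_) h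
  exact fun h0 => hx ((c.zero x).1 h0)

/-- **Existence of the head curve.** -/
theorem exists_pos_curve (i : Fin n) : ∃ φ : EmbP1 (Cov O.B.hh),
    (∀ x ∈ φ.image, O.α i x = 0) ∧ ∀ c : CurveLB O.B.D φ, 0 < (mbc c).x S (i, 0) := by
  have : SigmaCompactSpace (Cov O.B.hh) := sigmaCompact_cov
  have hα : ∀ x, O.bα (i, 0) x = O.α i x := fun x => by
    change O.α i (O.B.D.sh (-0) x) = _
    rw [neg_zero, O.B.D.sh_zero]
  have hdense : Dense {x | (MB.base O (i, 0)).α x ≠ 0} := by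
    have h1 := (O.cone i).α_dense
    refine Dense.mono (fun x hx => ?_) h1
    change O.bα (i, 0) x ≠ 0
    rw [hα]
    exact hx
  have hN := (nf_of_dense hdense).1
  have hcl : ∀ C : Lines (Cov O.B.hh), ∃ φ : EmbP1 (Cov O.B.hh), φ.image = C.1 := fun C => C.2
  choose ψ hψ using hcl
  have hc : ∀ C, Nonempty (CurveLB O.B.D (ψ C)) := fun C => exists_curveLB O.B.D (ψ C)
  set c : ∀ C, CurveLB O.B.D (ψ C) := fun C => (hc C).some with hcdef
  obtain ⟨C, hC1, hC2⟩ := exists_neg_line (M := Cov O.B.hh) hN (fun x hx => by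
      have hx0 : O.α i x = 0 := by
        rw [← hα]
        have h1 : ‖O.bα (i, 0) x‖ ^ 2 = 0 := hx
        simpa using h1
      obtain ⟨φ, h1, h2⟩ := O.curves i x hx0
      exact ⟨φ, h1, fun y hy => by
        change ‖O.bα (i, 0) y‖ ^ 2 = 0
        rw [hα, h2 y hy]; simp⟩)
    (isCompact_supp2 (H.curv_CS (MB.base O (i, 0)).L _ _ (MB.base O (i, 0)).endB))
    (fun C x => ‖(c C).s x‖ ^ 2) (fun C => by rw [← hψ C]; exact (c C).norm)
    (fun N => (pN (MB.base O (i, 0)) N).re)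
    (fun N N' h1 h2 => by
      simp only [pN_mul (H := H) (MB.base O (i, 0)) h1 h2, Complex.add_re])
    (fun N h1 h2 => by
      simp only [pN_zero (H := H) (MB.base O (i, 0)) h1 h2, Complex.zero_re])
    (by
      rw [pN_base S hdense, Complex.ofReal_re, MB.x_base, if_pos rfl]
      norm_num)
  refine ⟨ψ C, fun x hx => ?_, fun c' => ?_⟩
  · rw [← hα]
    have h1 := hC1 x (by rw [← hψ C]; exact hx)
    have h2 : ‖O.bα (i, 0) x‖ ^ 2 = 0 := h1
    simpa using h2
  · have h1 := pN_base S (dense_of_curve (c C)) (i, 0)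
    have h2 : (pN (MB.base O (i, 0)) (fun x => ‖(mbc (c C)).α x‖ ^ 2)).re < 0 := hC2
    rw [h1, Complex.ofReal_re] at h2
    -- two bundles of the same curve
    obtain ⟨u, hu, hu0, hueq⟩ := IsNormOf.exists_unit (ψ C).isCurve (c C).norm c'.norm
    have h3 := pN_base S (dense_of_curve c') (i, 0)
    have h4 : (fun x => ‖(mbc c').α x‖ ^ 2) = fun x => ‖(mbc (c C)).α x‖ ^ 2 * u x :=
      funext fun x => hueq x
    rw [h4, pN_mul (H := H) _ (nf_of_dense (dense_of_curve (c C))).1 hu,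
      pN_zero (H := H) _ hu (fun x _ => hu0 x), add_zero] at h3
    have h5 : ((-(mbc (c C)).x S (i, 0) : ℝ) : ℂ) = ((-(mbc c').x S (i, 0) : ℝ) : ℂ) := by
      rw [← h1, ← h3]
    have h6 : -(mbc (c C)).x S (i, 0) = -(mbc c').x S (i, 0) := by exact_mod_cast h5
    linarith

end

end Vale.Agent.P267.H75
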