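import Vale.Agent.P267.H451.DivLB
import Vale.Agent.P267.H682.P1Div
import Vale.Agent.P267.H399.ExactEnd
import Vale.Agent.P267.H206.Fa3
import Vale.Agent.P267.H338.Factor

/-!
# P267 (helper75): the line bundle of a compact curve on the infinite cyclic cover

For an embedded projective line `φ : EmbP1 M` the line bundle `𝒪(C)`, `C = φ.image`, as a projector
line bundle which is exactly trivial for large `|f|`, with its canonical section, equal to the basis
vector `0` for large `|f|`.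
-/

set_option linter.unusedVariables false
set_option linter.unusedSectionVars false

open scoped Manifold ContDiff ComplexConjugate Matrix Topology
open Set Filter
open Vale.Agent.P267.FL Vale.Agent.P267.XT
open Vale.Agent.P267.H338 Vale.Agent.P267.H682 Vale.Agent.P267.H815 Vale.Agent.P267.H451
  Vale.Agent.P267.H757

noncomputable section

namespace Vale.Agent.P267.H75

/-! ### the divisor, with equation `1` on the complement of the curve -/

section effdiv

variable {M : Type} [TopologicalSpace M] [ChartedSpace C2 M] [T2Space M] [IsManifold 𝓘(ℂ, C2) ω M]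

/-- the quotient of two reduced local equations of the same set, as one function -/
theorem exists_unit_of_locEqn {C U U' : Set M} (hU : IsOpen U) (hU' : IsOpen U') {f f' : M → ℂ}
    (hf : ∀ y ∈ U, LocEqn f C y) (hf' : ∀ y ∈ U', LocEqn f' C y) :
    ∃ u : M → ℂ, MDifferentiableOn 𝓘(ℂ, C2) 𝓘(ℂ) u (U ∩ U') ∧
      ∀ y ∈ U ∩ U', u y ≠ 0 ∧ f y = u y * f' y := by
  have key : ∀ y : M, ∃ u : M → ℂ, y ∈ U ∩ U' → UnitN u y ∧
      ∀ᶠ z in 𝓝 y, f z = u z * f' z := by
    intro y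
    by_cases hy : y ∈ U ∩ U'
    · obtain ⟨u, hu⟩ := (hf y hy.1).assoc (hf' y hy.2)
      exact ⟨u, fun _ => hu⟩
    · exact ⟨fun _ => 1, fun h => absurd h hy⟩
  choose u hu using key
  have hloc : ∀ z ∈ U ∩ U', (fun y => u y y) =ᶠ[𝓝 z] u z := by
    intro z hz
    filter_upwards [(hU.inter hU').mem_nhds hz, (hu z hz).1.eventually,
      eventually_eventually_nhds.2 (hu z hz).2] with y hy hy1 hy2
    refine eq_of_mul_eq (hu y hy).1.1.continuousAt hy1.1.continuousAt
      (hf' y hy.2).frequently ?_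
    filter_upwards [(hu y hy).2, hy2] with w hw hw'
    rw [← hw, ← hw']
  refine ⟨fun y => u y y, ?_, ?_⟩
  · intro z hz
    exact (((hu z hz).1.1.congr (hloc z hz)).self).mdifferentiableWithinAt
  · intro y hy
    exact ⟨(hu y hy).1.2, (hu y hy).2.self_of_nhds⟩

theorem locEqn_one {C : Set M} (hC : IsClosed C) {y : M} (hy : y ∉ C) :
    LocEqn (fun _ => (1 : ℂ)) C y := by
  refine ⟨holN_const 1 y, fun h => absurd h one_ne_zero, ?_⟩
  filter_upwards [hC.isOpen_compl.mem_nhds hy] with z hz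
  exact ⟨fun h => absurd h hz, fun h => absurd h one_ne_zero⟩

/-- The reduced divisor of an embedded projective line, with local equation `1` on the complement
of the curve. -/
theorem exists_effDiv_compl (φ : EmbP1 M) : ∃ D : EffDiv M,
    (∀ x, ∀ y ∈ D.U x, LocEqn (D.f x) φ.image y) ∧
    ∀ x, x ∉ φ.image → D.U x = φ.imageᶜ ∧ D.f x = fun _ => 1 := by
  classical
  set T := toEffDiv φ with hT
  have ho : IsOpen φ.imageᶜ := φ.isClosed_image.isOpen_compl
  set U : M → Set M := fun x => if x ∈ φ.image then T.U x else φ.imageᶜ with hU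
  set f : M → M → ℂ := fun x => if x ∈ φ.image then T.f x else fun _ => 1 with hf
  have hUo : ∀ x, IsOpen (U x) := by
    intro x
    by_cases h : x ∈ φ.image
    · simp only [hU, if_pos h]; exact T.isOpen x
    · simp only [hU, if_neg h]; exact ho
  have hL : ∀ x, ∀ y ∈ U x, LocEqn (f x) φ.image y := by
    intro x y hy
    by_cases h : x ∈ φ.image
    · simp only [hU, if_pos h] at hy
      simp only [hf, if_pos h]
      exact toEffDiv_spec φ x y hy
    · simp only [hU, if_neg h] at hy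
      simp only [hf, if_neg h]
      exact locEqn_one φ.isClosed_image hy
  refine ⟨⟨U, f, hUo, fun x => ?_, fun x y hy => (hL x y hy).1.self.mdifferentiableWithinAt,
    fun x y hy => (hL x y hy).frequently,
    fun x x' => exists_unit_of_locEqn (hUo x) (hUo x') (hL x) (hL x')⟩, hL, fun x hx => ?_⟩
  · by_cases h : x ∈ φ.image
    · simp only [hU, if_pos h]; exact T.mem x
    · simp only [hU, if_neg h]; exact h
  · exact ⟨by simp only [hU, if_neg hx], by simp only [hf, if_neg hx]⟩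

end effdiv

/-! ### partition of unity -/

section pu

variable {M : Type} [TopologicalSpace M] [ChartedSpace C2 M] [T2Space M] [SigmaCompactSpace M]
  [IsManifold 𝓘(ℂ, C2) ω M]

/-- A partition of unity subordinate to `Cᶜ` and finitely many `D.U x`, `x ∈ C`, trivial outside
the neighbourhood `V` of `C`. -/
theorem exists_PU_compl {φ : EmbP1 M} {D : EffDiv M}
    (h1 : ∀ x, x ∉ φ.image → D.U x = φ.imageᶜ ∧ D.f x = fun _ => 1) {V : Set M} (hV : IsOpen V)
    (hCV : φ.image ⊆ V) {p₀ : M} (hp₀ : p₀ ∉ φ.image) :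
    ∃ (k : ℕ) (p : PU D (k + 1)), p.pt 0 = p₀ ∧ (∀ y, y ∉ V → p.ψ 0 y = 1) ∧
      ∀ y, y ∉ V → ∀ i : Fin k, p.ψ i.succ y = 0 := by
  classical
  have hM : IsManifold 𝓘(ℝ, C2) ∞ M := isManifold_real' (X := M) ∞
  obtain ⟨t, ht⟩ := φ.isCompact_image.elim_finite_subcover (fun x : φ.image => D.U x)
    (fun x => D.isOpen x) (fun x hx => mem_iUnion.2 ⟨⟨x, hx⟩, D.mem x⟩)
  set k := t.card with hk
  set q : Fin k → M := fun i => ((t.equivFin.symm i : φ.image) : M) with hq
  set pt : Fin (k + 1) → M := Fin.cons p₀ q with hpt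
  set W : Fin (k + 1) → Set M := Fin.cons φ.imageᶜ (fun i => D.U (q i) ∩ V) with hW
  have hWo : ∀ i, IsOpen (W i) := by
    intro i
    refine Fin.cases ?_ (fun j => ?_) i
    · exact φ.isClosed_image.isOpen_compl
    · exact (D.isOpen _).inter hV
  have hWU : ∀ i, W i ⊆ D.U (pt i) := by
    intro i
    refine Fin.cases ?_ (fun j => ?_) i
    · simp only [hW, hpt, Fin.cons_zero]
      rw [(h1 p₀ hp₀).1]
    · simp only [hW, hpt, Fin.cons_succ]
      exact inter_subset_left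
  have hcov : (univ : Set M) ⊆ ⋃ i, W i := by
    intro y _
    by_cases hy : y ∈ φ.image
    · obtain ⟨x, hx⟩ := mem_iUnion.1 (ht hy)
      obtain ⟨hxt, hyx⟩ := mem_iUnion.1 hx
      refine mem_iUnion.2 ⟨(t.equivFin ⟨x, hxt⟩).succ, ?_⟩
      simp only [hW, hq, Fin.cons_succ, Equiv.symm_apply_apply]
      exact ⟨hyx, hCV hy⟩
    · exact mem_iUnion.2 ⟨0, hy⟩
  obtain ⟨f, hf⟩ := SmoothPartitionOfUnity.exists_isSubordinate 𝓘(ℝ, C2) (isClosed_univ (X := M))
    W hWo hcov
  have hout : ∀ y, y ∉ V → ∀ i : Fin k, f i.succ y = 0 := by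
    intro y hy i
    by_contra hne
    have h2 : y ∈ tsupport (f i.succ) := subset_tsupport _ hne
    have h3 := hf i.succ h2
    exact hy h3.2
  refine ⟨k, ⟨pt, fun i y => ((f i y : ℝ) : ℂ), fun i y => ?_, fun i => ?_, fun y => ?_⟩, rfl,
    fun y hy => ?_, fun y hy i => ?_⟩
  · have h1 : ContMDiff 𝓘(ℝ, C2) 𝓘(ℝ, ℂ) ∞ (fun y => ((f i y : ℝ) : ℂ)) :=
      (Complex.ofRealCLM.contDiff (n := ∞)).contMDiff.comp (f i).contMDiff
    exact sm_of_reg0 (contMDiff_iff_reg0.1 h1) y
  · refine Subset.trans ?_ ((hf i).trans (hWU i))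
    refine closure_mono ?_
    intro y hy h0
    exact hy (by simp only [h0, Complex.ofReal_zero])
  · obtain ⟨i, hi⟩ := f.exists_pos_of_mem (mem_univ y)
    exact ⟨i, by exact_mod_cast hi.ne'⟩
  · have h2 := f.sum_eq_one (mem_univ y)
    rw [finsum_eq_sum_of_fintype, Fin.sum_univ_succ,
      Finset.sum_eq_zero (fun i _ => hout y hy i), add_zero] at h2
    change ((f 0 y : ℝ) : ℂ) = 1
    rw [h2, Complex.ofReal_one]
  · change ((f i.succ y : ℝ) : ℂ) = 0
    rw [hout y hy i, Complex.ofReal_zero]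

end pu

/-! ### norm functions of a curve, locally -/

section normOf

variable {M : Type} [TopologicalSpace M] [ChartedSpace C2 M] [IsManifold 𝓘(ℂ, C2) ω M]

theorem smoothOn_log {U : Set M} {g : M → ℂ} (hU : IsOpen U)
    (hg : MDifferentiableOn 𝓘(ℂ, C2) 𝓘(ℂ) g U) (h0 : ∀ x ∈ U, g x ≠ 0) :
    ContMDiffOn 𝓘(ℝ, C2) 𝓘(ℝ) ∞ (fun x => Real.log (‖g x‖ ^ 2)) U := by
  have h1 := smoothOn_normSq hU hg
  intro x hx
  have h2 : (‖g x‖ ^ 2 : ℝ) ≠ 0 := pow_ne_zero 2 (norm_ne_zero_iff.2 (h0 x hx))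
  exact ((ContMDiffAt.comp (g := Real.log) x (Real.contDiffAt_log.2 h2).contMDiffAt
    ((h1 x hx).contMDiffAt (hU.mem_nhds hx)))).contMDiffWithinAt

/-- a function which is locally the norm of a reduced local equation is a norm function of the
curve -/
theorem isNormOf_of_local {C : Set M} {NC : M → ℝ}
    (h : ∀ p, ∃ (U : Set M) (l : M → ℂ) (φ : M → ℝ), p ∈ U ∧ IsDef C2 C U l ∧
      LocRep C2 NC U l φ) : IsNormOf C2 C NC := by
  intro U l hd
  choose V m ψ hpV hdV hr using h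
  have key : ∀ p, ∃ q : M → ℂ, MDifferentiableOn 𝓘(ℂ, C2) 𝓘(ℂ) q (U ∩ V p) ∧
      ∀ x ∈ U ∩ V p, m p x = l x * q x := fun p =>
    exists_quot_mfd hd (hdV p).isOpen (hdV p).hol
      (fun x hx _ hxC => ((hdV p).zero_iff x hx).2 hxC)
  choose q hq hqe using key
  have hO : ∀ p, IsOpen (U ∩ V p) := fun p => hd.isOpen.inter (hdV p).isOpen
  have hq0 : ∀ p, ∀ x ∈ U ∩ V p, q p x ≠ 0 := by
    intro p x hx
    obtain ⟨q', hq', hqe'⟩ := exists_quot_mfd (hdV p) hd.isOpen hd.hol
      (fun x hx _ hxC => (hd.zero_iff x hx).2 hxC)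
    have h1 := hd.quot_unique (B := U ∩ V p) (hO p) inter_subset_left
      (q₁ := fun x => q p x * q' x) (q₂ := fun _ => (1 : ℂ))
      ((hq p).continuousOn.mul (hq'.continuousOn.mono fun y hy => ⟨hy.2, hy.1⟩))
      continuousOn_const (fun y hy hyC => by
        have h2 : l y ≠ 0 := fun h0 => hyC ((hd.zero_iff y hy.1).1 h0)
        have h3 := hqe p y hy
        have h4 := hqe' y ⟨hy.2, hy.1⟩
        rw [h3] at h4
        have h5 : l y * (q p y * q' y) = l y * 1 := by
          rw [mul_one, ← mul_assoc]; exact h4.symm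
        exact mul_left_cancel₀ h2 h5) x hx
    intro h0
    simp only [h0, zero_mul] at h1
    exact zero_ne_one h1
  have hval : ∀ p, ∀ y ∈ U ∩ V p, y ∉ C →
      ψ p y - Real.log (‖q p y‖ ^ 2) = -Real.log (NC y / ‖l y‖ ^ 2) := by
    intro p y hy hyC
    have h2 : l y ≠ 0 := fun h0 => hyC ((hd.zero_iff y hy.1).1 h0)
    have h3 : (‖l y‖ ^ 2 : ℝ) ≠ 0 := pow_ne_zero 2 (norm_ne_zero_iff.2 h2)
    have h4 : (‖q p y‖ ^ 2 : ℝ) ≠ 0 := pow_ne_zero 2 (norm_ne_zero_iff.2 (hq0 p y hy))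
    rw [(hr p).eq y hy.2, hqe p y hy, norm_mul, mul_pow]
    have h5 : ‖l y‖ ^ 2 * ‖q p y‖ ^ 2 * Real.exp (-ψ p y) / ‖l y‖ ^ 2 =
        ‖q p y‖ ^ 2 * Real.exp (-ψ p y) := by
      field_simp
    rw [h5, Real.log_mul h4 (Real.exp_pos _).ne', Real.log_exp]
    ring
  have hsm : ∀ p, ContMDiffOn 𝓘(ℝ, C2) 𝓘(ℝ) ∞
      (fun y => ψ p y - Real.log (‖q p y‖ ^ 2)) (U ∩ V p) := fun p =>
    ((hr p).smooth.mono inter_subset_right).sub (smoothOn_log (hO p) (hq p) (hq0 p))
  set Φ : M → ℝ := fun x => ψ x x - Real.log (‖q x x‖ ^ 2) with hΦ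
  have hloc : ∀ p, ∀ x ∈ U ∩ V p, Φ x = ψ p x - Real.log (‖q p x‖ ^ 2) := by
    intro p x hx
    refine hd.quot_unique (B := (U ∩ V p) ∩ (U ∩ V x)) ((hO p).inter (hO x))
      (inter_subset_left.trans inter_subset_left)
      (q₁ := fun y => ψ x y - Real.log (‖q x y‖ ^ 2))
      (q₂ := fun y => ψ p y - Real.log (‖q p y‖ ^ 2))
      ((hsm x).continuousOn.mono inter_subset_right)
      ((hsm p).continuousOn.mono inter_subset_left)
      (fun y hy hyC => ?_) x ⟨hx, hx.1, hpV x⟩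
    rw [hval x y hy.2 hyC, hval p y hy.1 hyC]
  refine ⟨Φ, hd.isOpen, hd.hol, fun W hW hWU hne => hd.exists_ne hW hWU hne, ?_, ?_⟩
  · intro p hp
    have h1 := (hsm p).contMDiffAt ((hO p).mem_nhds ⟨hp, hpV p⟩)
    refine (h1.congr_of_eventuallyEq ?_).contMDiffWithinAt
    filter_upwards [(hO p).mem_nhds ⟨hp, hpV p⟩] with y hy
    exact hloc p y hy
  · intro x hx
    have hx' : x ∈ U ∩ V x := ⟨hx, hpV x⟩
    have h4 : (0 : ℝ) < ‖q x x‖ ^ 2 := pow_pos (norm_pos_iff.2 (hq0 x x hx')) 2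
    rw [(hr x).eq x (hpV x), hqe x x hx', norm_mul, mul_pow, hΦ]
    have h5 : Real.exp (-(ψ x x - Real.log (‖q x x‖ ^ 2))) =
        ‖q x x‖ ^ 2 * Real.exp (-ψ x x) := by
      rw [neg_sub, sub_eq_add_neg, Real.exp_add, Real.exp_log h4]
    simp only [h5]
    ring

end normOf

/-! ### the line bundle -/

theorem nsqv_e0 {k : ℕ} : nsqv (fun i : Fin (k + 1) => (if i = 0 then (1 : ℂ) else 0)) = 1 := by
  unfold nsqv
  rw [Finset.sum_eq_single 0]
  · simp
  · intro i _ hi
    simp [hi]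
  · simp

theorem proj1_e0 {k : ℕ} : proj1 (fun i : Fin (k + 1) => (if i = 0 then (1 : ℂ) else 0)) =
    Matrix.single 0 0 1 := by
  ext i j
  unfold proj1
  rw [nsqv_e0, Matrix.single_apply]
  by_cases hi : i = 0
  · by_cases hj : j = 0
    · subst hi hj; simp
    · simp [hj, Ne.symm hj]
  · simp [hi, Ne.symm hi]

/-- The line bundle of the curve `φ.image`, exactly trivial at the ends, with its canonical
section. -/
structure CurveLB {M : Type} [TopologicalSpace M] [ChartedSpace C2 M] [IsManifold 𝓘(ℂ, C2) ω M]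
    (D : XTData M) (φ : EmbP1 M) where
  k : ℕ
  L : LB M (Fin (k + 1))
  a : M → Fin 2 → ℂ
  s : M → EuclideanSpace ℂ (Fin (k + 1))
  R : ℝ
  R_nonneg : 0 ≤ R
  hol : L.IsHol a
  reg : Reg0 ∞ 0 s
  sec : L.Sec s
  shol : ∀ x i, L.db0 a 0 s x i = 0
  P_end : ∀ x, R ≤ |D.f x| → L.P x = Matrix.single 0 0 1
  a_end : ∀ x, R ≤ |D.f x| → a x = 0
  s_end : ∀ x, R ≤ |D.f x| → s x = H706.eb 0
  zero : ∀ x, s x = 0 ↔ x ∈ φ.image
  norm : IsNormOf C2 φ.image (fun x => ‖s x‖ ^ 2)

section exist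

variable {M : Type} [TopologicalSpace M] [ChartedSpace C2 M] [T2Space M] [SigmaCompactSpace M]
  [IsManifold 𝓘(ℂ, C2) ω M]

theorem exists_curveLB (D : XTData M) (φ : EmbP1 M) : Nonempty (CurveLB D φ) := by
  obtain ⟨T, hT, hT1⟩ := exists_effDiv_compl φ
  -- a bound for `f` on the curve
  have hcf : Continuous D.f := H399.continuous_f D
  obtain ⟨R, hR⟩ : ∃ R : ℝ, ∀ x ∈ φ.image, |D.f x| < R := by
    obtain ⟨R, hR⟩ := (φ.isCompact_image.image hcf).isBounded.exists_norm_le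
    exact ⟨R + 1, fun x hx => lt_of_le_of_lt (hR _ ⟨x, hx, rfl⟩) (lt_add_one R)⟩
  have hR0 : 0 < R := lt_of_le_of_lt (abs_nonneg _) (hR _ (φ.mem_image_f₀ 0))
  have : Nonempty M := ⟨φ.f₀ 0⟩
  obtain ⟨p₀, hp₀⟩ := H206.exists_f_ge' D R
  have hp₀' : p₀ ∉ φ.image := fun h => by
    have := hR p₀ h
    linarith [le_abs_self (D.f p₀)]
  set V : Set M := {x | |D.f x| < R} with hV
  have hVo : IsOpen V := isOpen_lt hcf.abs continuous_const
  obtain ⟨k, p, hp0, hψ0, hψ1⟩ := exists_PU_compl hT1 hVo (fun x hx => hR x hx) hp₀'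
  set B := p.divLB with hB
  have hU0 : T.U p₀ = φ.imageᶜ := (hT1 p₀ hp₀').1
  have hf0 : T.f p₀ = fun _ => 1 := (hT1 p₀ hp₀').2
  have hVU : ∀ y, y ∉ V → y ∈ T.U p₀ := fun y hy => by
    rw [hU0]
    exact fun h => hy (hR y h)
  -- the frame at the ends
  have hv : ∀ y, y ∉ V → ∀ i, p.v p₀ y i = if i = 0 then 1 else 0 := by
    intro y hy i
    refine Fin.cases ?_ (fun j => ?_) i
    · change p.ψ 0 y * trf T (p.pt 0) p₀ y = _
      rw [hψ0 y hy, hp0, one_mul, if_pos rfl]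
      have := trf_eq T (hVU y hy) (hVU y hy)
      rw [hf0] at this
      simpa using this.symm
    · change p.ψ j.succ y * _ = _
      rw [hψ1 y hy j, zero_mul, if_neg (Fin.succ_ne_zero j)]
  have hend : ∀ y, R + 1 ≤ |D.f y| → ∀ᶠ z in 𝓝 y, z ∉ V := by
    intro y hy
    have h1 : R < |D.f y| := by linarith
    filter_upwards [hcf.abs.continuousAt.eventually (lt_mem_nhds h1)] with z hz
    exact fun h => absurd h (not_lt.2 hz.le)
  have hdef : ∀ x, IsDef C2 φ.image (T.U x) (T.f x) := fun x =>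
    ⟨T.isOpen x, T.holo x, fun y hy => (hT x y hy).mem_iff.symm,
      fun y hy hyC => (hT x y hy).2.1 ((hT x y hy).mem_iff.1 hyC)⟩
  refine ⟨{ k := k, L := B.L, a := B.a, s := B.s, R := R + 1, R_nonneg := by linarith,
            hol := B.hol, reg := B.s_reg, sec := B.s_sec, shol := B.s_hol,
            P_end := fun x hx => ?_, a_end := fun x hx => ?_, s_end := fun x hx => ?_,
            zero := fun x => ?_, norm := ?_ }⟩
  · have hxV := (hend x hx).self_of_nhds
    have h1 := p.glue.P_eq (β := p₀) (hVU x hxV)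
    change p.glue.P x = _
    rw [h1]
    have h2 : (fun i => p.glue.v p₀ x i) = fun i => if i = 0 then (1 : ℂ) else 0 :=
      funext fun i => hv x hxV i
    rw [h2, proj1_e0]
  · have hxV := (hend x hx).self_of_nhds
    funext i
    have h1 := p.glue.a_eq (β := p₀) (hVU x hxV) i
    change p.glue.a x i = 0
    rw [h1, neg_eq_zero]
    refine Finset.sum_eq_zero fun j _ => ?_
    have h2 : (fun z => p.glue.v p₀ z j) =ᶠ[𝓝 x] fun _ => if j = 0 then (1 : ℂ) else 0 := by
      filter_upwards [hend x hx] with z hz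
      exact hv z hz j
    rw [FL.dbar0_congr h2, FL.dbar0_const]
    simp
  · have hxV := (hend x hx).self_of_nhds
    rw [B.s_eq p₀ x (hVU x hxV), hf0]
    simp only [one_smul]
    ext i
    have h1 := hv x hxV i
    change p.v p₀ x i = _
    rw [h1, PiLp.single_apply]
  · rw [B.s_eq x x (T.mem x), smul_eq_zero, (hT x x (T.mem x)).mem_iff]
    constructor
    · rintro (h | h)
      · exact h
      · exact absurd h (B.v_ne x x (T.mem x))
    · exact fun h => Or.inl h
  · refine isNormOf_of_local fun x => ⟨T.U x, T.f x, fun y => -Real.log (‖B.v x y‖ ^ 2), T.mem x,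
      hdef x, T.isOpen x, T.holo x, fun W hW hWU hne => (hdef x).exists_ne hW hWU hne,
      fun y hy => ?_, fun y hy => ?_⟩
    · have h1 := (B.frameAt hy).sm_log
      have h2 : ContMDiffAt 𝓘(ℝ, C2) 𝓘(ℝ, ℂ) ∞
          (fun y => ((Real.log (‖B.v x y‖ ^ 2) : ℝ) : ℂ)) y :=
        contMDiffAt_iff_at0.2 (at0_zero_iff.2 h1)
      have h3 : ContMDiffAt 𝓘(ℝ, C2) 𝓘(ℝ) ∞ (fun y => Real.log (‖B.v x y‖ ^ 2)) y := by
        have := (Complex.reCLM.contDiff (n := ∞)).contMDiff.contMDiffAt.comp y h2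
        simpa [Function.comp_def] using this
      exact h3.neg.contMDiffWithinAt
    · have h1 : (0 : ℝ) < ‖B.v x y‖ ^ 2 := pow_pos (norm_pos_iff.2 (B.v_ne x y hy)) 2
      rw [B.s_eq x y hy, norm_smul, mul_pow, neg_neg, Real.exp_log h1]

end exist

end Vale.Agent.P267.H75
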